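import Mathlib
import Vale.Agent.Lib.P160.Main

namespace Vale.Agent.Results.P160.QuadraticFactor

open Vale.Agent.Lib.P160 Finset

theorem count_bound (n : ℕ) :
    2 * ((n.choose 2 * 2) * 2 ^ (n.choose 2)) ≤
      2 * (univ.filter (fun ω : SignConfig n => (symMatrix ω).det = 0)).card +
        ((n.choose 2 * 2) * (n.choose 2 * 2) - n.choose 2 * 2) * 2 ^ ((n - 1).choose 2) := by
  classical
  let I := {e : Sym2 (Fin n) // ¬ e.IsDiag} × ℤˣ
  let E : I → Finset (SignConfig n) := fun α => pairEvent α.1.1 α.2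
  have hI : Fintype.card I = n.choose 2 * 2 := by
    rw [Fintype.card_prod, Sym2.card_subtype_not_diag, Fintype.card_units_int, Fintype.card_fin]
  have hb := bonferroni E
  have h1 : (n.choose 2 * 2) * 2 ^ (n.choose 2) ≤ ∑ α, (E α).card := by
    rw [← hI, ← Finset.card_univ, ← smul_eq_mul, ← Finset.sum_const]
    apply Finset.sum_le_sum
    intro α _
    exact card_pairEvent_ge α.1.1 α.1.2 α.2
  have h2 : ∑ p ∈ (univ : Finset I).offDiag, (E p.1 ∩ E p.2).card ≤
      ((n.choose 2 * 2) * (n.choose 2 * 2) - n.choose 2 * 2) * 2 ^ ((n - 1).choose 2) := by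
    rw [← hI, ← Finset.card_univ, ← Finset.offDiag_card, ← smul_eq_mul, ← Finset.sum_const]
    apply Finset.sum_le_sum
    intro p hp
    rw [Finset.mem_offDiag] at hp
    apply card_pairEvent_inter_le _ _ p.1.1.2 p.2.1.2
    intro h
    apply hp.2.2
    have h3 : p.1.1.1 = p.2.1.1 := (Prod.mk.inj h).1
    have h4 : p.1.2 = p.2.2 := (Prod.mk.inj h).2
    exact Prod.ext (Subtype.ext h3) h4
  have h3 : (univ.biUnion E).card ≤
      (univ.filter (fun ω : SignConfig n => (symMatrix ω).det = 0)).card := by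
    apply Finset.card_le_card
    intro ω hω
    rw [Finset.mem_biUnion] at hω
    obtain ⟨α, _, hα⟩ := hω
    rw [Finset.mem_filter]
    refine ⟨Finset.mem_univ _, ?_⟩
    obtain ⟨⟨e, he⟩, s⟩ := α
    induction e using Sym2.ind with
    | _ i j =>
      have hij : i ≠ j := by simpa using he
      exact det_zero_of_mem hij hα
  omega

/-- For every `n`, `q_n ≥ n(n-1) 2^{-n} - n(n-1)(n(n-1)-1) 4^{-n}`. -/
theorem result (n : ℕ) :
    ((n : ℝ) * (n - 1)) / 2 ^ n - ((n : ℝ) * (n - 1)) * ((n : ℝ) * (n - 1) - 1) / 4 ^ n ≤ q n := by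
  have hq0 : 0 ≤ q n := by unfold q; positivity
  rcases n with _ | m
  · simpa using hq0
  have hcount := count_bound (m + 1)
  set S : ℕ := (univ.filter (fun ω : SignConfig (m + 1) => (symMatrix ω).det = 0)).card with hS
  set N : ℕ := (m + 1).choose 2 * 2 with hN
  have hNr : (N : ℝ) = ((m + 1 : ℕ) : ℝ) * (((m + 1 : ℕ) : ℝ) - 1) := by
    rw [hN]; push_cast; rw [Nat.cast_choose_two]; push_cast; ring
  have hc1 : (m + 1).choose 2 = m + m.choose 2 := by
    rw [Nat.choose_succ_succ' m 1, Nat.choose_one_right]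
  have hc0 : (m + 1 + 1).choose 2 = (m + 1) + (m + m.choose 2) := by
    rw [Nat.choose_succ_succ' (m + 1) 1, Nat.choose_one_right, hc1]
  have hcard : (Fintype.card (SignConfig (m + 1)) : ℝ) = 2 * (2 ^ m) ^ 2 * 2 ^ (m.choose 2) := by
    rw [card_cfg, Fintype.card_fin, hc0]
    push_cast
    rw [pow_add, pow_add, pow_add]
    ring
  have hle : N ≤ N * N := Nat.le_mul_self N
  have hcountR : 2 * ((N : ℝ) * (2 ^ m * 2 ^ (m.choose 2))) ≤
      2 * (S : ℝ) + ((N : ℝ) * N - N) * 2 ^ (m.choose 2) := by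
    have h := hcount
    rw [hc1, Nat.add_sub_cancel, pow_add] at h
    have h' : ((2 * (N * (2 ^ m * 2 ^ (m.choose 2))) : ℕ) : ℝ) ≤
        ((2 * S + (N * N - N) * 2 ^ (m.choose 2) : ℕ) : ℝ) := by exact_mod_cast h
    push_cast [Nat.cast_sub hle] at h'
    exact h'
  unfold q
  rw [← hS, hcard, ← hNr]
  have ha : (0 : ℝ) < 2 ^ (m.choose 2) := by positivity
  have hb : (0 : ℝ) < 2 ^ m := by positivity
  rw [le_div_iff₀ (by positivity)]
  have h4 : (4 : ℝ) ^ (m + 1) = 4 * (2 ^ m) ^ 2 := by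
    rw [pow_succ, ← pow_mul, mul_comm m 2, pow_mul]; norm_num; ring
  rw [h4, pow_succ]
  generalize (2 : ℝ) ^ (m.choose 2) = a at *
  generalize (2 : ℝ) ^ m = b at *
  have : ((N : ℝ) / (b * 2) - (N : ℝ) * ((N : ℝ) - 1) / (4 * b ^ 2)) * (2 * b ^ 2 * a)
      = (N : ℝ) * (b * a) - ((N : ℝ) * N - N) * a / 2 := by
    field_simp
    ring
  rw [this]
  linarith

end Vale.Agent.Results.P160.QuadraticFactor
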